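import Vale.Agent.P301.R2.H396.Pencil

/-! # Sixfolds: a section of `L` itself or a pencil without fixed divisor -/

open scoped Manifold ContDiff ComplexOrder Topology
open Filter

set_option linter.all false

noncomputable section

namespace Vale.Agent.P301.R2.H676

open Vale.Agent.P272.K Vale.Agent.P301.H599 Vale.Agent.P301.H450 Vale.Agent.P301.H99
open Vale.Agent.P301.R2.H396

section six

variable {X : Type} [TopologicalSpace X] [ChartedSpace (Cm 6) X] [T2Space X] [CompactSpace X]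
  [SimplyConnectedSpace X] [IsManifold 𝓘(ℂ, Cm 6) ω X]
variable {ι : Type} {L : LineBundle 6 X ι}
variable {w s : Chart 6 X → Cm 6 → Matrix (Fin 6) (Fin 6) ℂ} {ρ : ι → X → ℝ} {F : X → X}

/-- a nonzero section of `L` -/
def HasOne {d : ℕ} {X : Type} [TopologicalSpace X] [ChartedSpace (Cm d) X] {ι : Type}
    (L : LineBundle d X ι) : Prop :=
  ∃ f : ι → X → ℂ, IsSecPow L 1 f ∧ ∃ i x, x ∈ L.U i ∧ f i x ≠ 0

theorem frac_or_sec (hs : IsSymplectic 6 X w s) (hρ : IsMetric L ρ)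
    (hn : IsNef w (curvature L ρ)) (hq : q s (curvature L ρ) (curvature L ρ) = 0)
    (hne : ¬ IsExact (curvature L ρ))
    (hCY : ∀ p : ℝ, 0 ≤ p → CYStatement F L ρ w 3 1 p) :
    HasFracPair L ρ ((357 : ℕ) : ℝ) ∨ HasOne L := by
  by_cases hyes : HasFracPair L ρ ((3 * 119 : ℕ) : ℝ)
  · exact Or.inl hyes
  right
  have hnd : H949.NoDep L 119 4 := H949.noDep_of_frac (by norm_num) hs hρ hn hq hne hyes
  obtain ⟨δ, C, C₁, c₀, K, hδ, hδ1, hC, hc₀, φ, τ, ε, φ₁, hm, hφ₁, hsk, hε0, hε1, hεt, hA, hexp,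
    hsix⟩ := H949.exists_lim_six hs hρ hn hq hne hCY
      (P := (2 * (6 : ℕ) + 1) * ((119 : ℕ) : ℝ)) le_rfl hnd
  obtain ⟨u, u', S, h⟩ := hsix id strictMono_id (hyperfilter ℕ) Nat.hyperfilter_le_atTop
  obtain ⟨f, hf, hfn, -⟩ := H949.exists_top_ne (n := 3) (by norm_num) hs.form hs.nondeg
    (H949.intForm_of_isSec h.secS) (fun i e x hx hi I hI => h.homS i e x hx hi I hI) h.nzS
  exact ⟨f, H949.isSecPow_of_intSec (m := 1) (by simpa using hf), hfn⟩

/-- a section of a root gives a section of `L` -/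
theorem one_of_root {κ : Type} {r : ℕ} {Q : LineBundle 6 X κ} {ρQ : κ → X → ℝ}
    (hρ : IsMetric L ρ) (hQ : IsRoot L ρ r Q ρQ) (h : HasOne Q) : HasOne L := by
  obtain ⟨f, hf, k, x, hk, hx⟩ := h
  obtain ⟨hh, hh1, hh2⟩ := transport hρ hQ.met (N := r) (K := 1)
    (sc_congr hQ.cls (fun e x hx => rfl) fun e x hx => by push_cast; rw [one_smul])
  obtain ⟨g, hg, hgf⟩ := hh2 f hf
  obtain ⟨i, hi⟩ := L.cover x
  refine ⟨g, hg, i, x, hi, ?_⟩
  rw [hgf k i x hk hi]
  exact div_ne_zero (pow_ne_zero _ hx) (hh1 k i x hk hi).2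

theorem mobile_or_one (hs : IsSymplectic 6 X w s) (hρ : IsMetric L ρ)
    (hn : IsNef w (curvature L ρ)) (hq : q s (curvature L ρ) (curvature L ρ) = 0)
    (hne : ¬ IsExact (curvature L ρ))
    (hCY : ∀ p : ℝ, 0 ≤ p → CYStatement F L ρ w 3 1 p) :
    HasMobilePair L (Nat.factorial 357) ∨ HasOne L := by
  by_cases h1 : HasOne L
  · exact Or.inr h1
  left
  refine mobile_of_fracPair (M := 357) (by norm_num) hs hρ hn hne fun r κ Q ρQ hQ => ?_
  rcases frac_or_sec hs hQ.met (hQ.nef hn) (hQ.iso hs hρ hq) (hQ.not_exact hne)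
    (hQ.cy hρ hCY) with h | h
  · exact h
  · exact absurd (one_of_root hρ hQ h) h1

/-- all pairs in dimension six -/
theorem pair_six (h : IsPairNZ L) : HasMobilePair L (Nat.factorial 357) ∨ HasOne L := by
  obtain ⟨w, s, ρ, hs, hρ, h, hne⟩ := h
  have hex := not_exact_of hne
  rcases h with ⟨F, c, hc, hθ, hdd⟩ | ⟨hn, h0, ψ, hψ, hz⟩
  · have hq := q_par hs hρ F hc hθ hdd
    obtain ⟨u, h, D⟩ := exists_dat hs hρ F hc hθ hdd
    exact mobile_or_one hs hρ D.isNef hq hex fun p hp =>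
      exists_cy_symplectic hs D (n := 3) (by norm_num) (by norm_num) hex le_rfl hp
  · have hq := ZL.q_eq_zero_of_int (by norm_num) hs (isReal11_curvature hρ) hn
      (INT.intX_eq_of_isIntegral h0)
    exact mobile_or_one hs hρ hn hq hex fun p hp =>
      ZL.cy_of_zl (id : X → X) hs hρ (n := 3) (by norm_num) (by norm_num) hn hex hψ hz hp

end six

section limits

variable {d : ℕ} {X : Type} [TopologicalSpace X] [ChartedSpace (Cm d) X] {ι : Type}
  {L : LineBundle d X ι}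
  {Y : ℕ → Type} [∀ n, TopologicalSpace (Y n)] [∀ n, ChartedSpace (Cm d) (Y n)] {κ : ℕ → Type}
  {M : ∀ n, LineBundle d (Y n) (κ n)} {N : ℕ}

/-- a subsequence -/
def subConv (C : Conv L Y κ M N) (ψ : ℕ → ℕ) (hψ : Tendsto ψ atTop atTop) :
    Conv L (fun n => Y (ψ n)) (fun n => κ (ψ n)) (fun n => M (ψ n)) N where
  φ n := C.φ (ψ n)
  V := C.V
  e := C.e
  i := C.i
  e' n := C.e' (ψ n)
  i' n := C.i' (ψ n)
  isOpen := C.isOpen
  cover := C.cover
  chart := C.chart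
  source := C.source
  chart' n := C.chart' (ψ n)
  source' n := C.source' (ψ n)
  tendsto_chart a := by
    intro u hu x hx
    obtain ⟨t, ht, h⟩ := C.tendsto_chart a u hu x hx
    exact ⟨t, ht, hψ.eventually h⟩
  tendsto_frame a b := by
    intro u hu x hx
    obtain ⟨t, ht, h⟩ := C.tendsto_frame a b u hu x hx
    exact ⟨t, ht, hψ.eventually h⟩

end limits

section limit_six

variable {X : Type} [TopologicalSpace X] [T2Space X] [CompactSpace X] [ChartedSpace (Cm 6) X]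
  [IsManifold 𝓘(ℂ, Cm 6) ω X] {ι : Type} {L : LineBundle 6 X ι}
  {Y : ℕ → Type} [∀ n, TopologicalSpace (Y n)] [∀ n, T2Space (Y n)] [∀ n, CompactSpace (Y n)]
  [∀ n, SimplyConnectedSpace (Y n)] [∀ n, ChartedSpace (Cm 6) (Y n)]
  [∀ n, IsManifold 𝓘(ℂ, Cm 6) ω (Y n)] {κ : ℕ → Type} {M : ∀ n, LineBundle 6 (Y n) (κ n)}

theorem limit_six (hM : ∀ n, IsPairNZ (M n)) (hlim : IsLimit L Y κ M) :
    (∃ f : ι → X → ℂ, Sec L 1 f ∧ ∃ i x, x ∈ L.U i ∧ f i x ≠ 0) ∨
      HasGrowth L (Nat.factorial 357) := by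
  obtain ⟨N, ⟨C⟩⟩ := hlim
  by_cases h : ∃ᶠ n in atTop, HasOne (M n)
  · left
    obtain ⟨ψ, hψ, hψ1⟩ := Filter.extraction_of_frequently_atTop h
    have C' := subConv C ψ hψ.tendsto_atTop
    obtain ⟨F, hF, hne⟩ := C'.one_sec (K := 1) fun n => by
      obtain ⟨f, hf, i, x, hi, hx⟩ := hψ1 n
      exact ⟨f, ⟨hf.holo, hf.change⟩, i, x, hi, hx⟩
    exact ⟨F, hF, hne⟩
  · right
    rw [not_frequently] at h
    obtain ⟨n0, hn0⟩ := eventually_atTop.1 h
    have C' := subConv C (fun n => n + n0) (tendsto_add_atTop_nat n0)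
    intro m
    exact C'.r_sec fun k => (hasPencil_of_mobile
      ((pair_six (hM (k + n0))).resolve_right (hn0 _ (Nat.le_add_left _ _)))).growth m

end limit_six

end Vale.Agent.P301.R2.H676
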